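import Mathlib
import Vale.Agent.Lib.P204.CurMain

open Matrix MeasureTheory Set
open scoped ContDiff
open Vale.Agent.Lib.P204.Cur

namespace Vale.Agent.Results.P204.A_kahler_current

/-- `J` is a smooth almost complex structure on the torus `ℝ^4/ℤ^4`. -/
def IsACS (J : (Fin 4 → ℝ) → Matrix (Fin 4) (Fin 4) ℝ) : Prop :=
  (∀ i j, ContDiff ℝ ∞ (fun x => J x i j)) ∧
  (∀ (k : Fin 4) x, J (x + Pi.single k 1) = J x) ∧
  ∀ x, J x * J x = -1

/-- `Ω` tames `J`. -/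
def Tames (Ω J : (Fin 4 → ℝ) → Matrix (Fin 4) (Fin 4) ℝ) : Prop :=
  ∀ x (v : Fin 4 → ℝ), v ≠ 0 → 0 < v ⬝ᵥ (Ω x *ᵥ (J x *ᵥ v)) 

/-- `G` is a closed current: it vanishes on exact forms. -/
def ClosedCurrent (G : ↥Forms →ₗ[ℝ] ℝ) : Prop :=
  ∀ θ : ↥Forms, ∀ S : (Fin 4 → ℝ) → Fin 4 → ℝ, (∀ i, ContDiff ℝ ∞ (fun x => S x i)) →
    (∀ (k : Fin 4) x, S (x + Pi.single k 1) = S x) → (∀ x, θ.1 x = dOne S x) → G θ = 0

/-- `G` has type `(1,1)`: it vanishes on `J`-anti-invariant forms. -/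
def Type11 (J : (Fin 4 → ℝ) → Matrix (Fin 4) (Fin 4) ℝ) (G : ↥Forms →ₗ[ℝ] ℝ) : Prop :=
  ∀ θ : ↥Forms, (∀ x, (J x)ᵀ * θ.1 x * J x = - θ.1 x) → G θ = 0

/-- `G` is strictly positive: on each `J`-invariant test form `θ` with `θ(v, J v) ≥ 0` it is at
least the mass of `θ` against the `(1,1)` part of `Ω`. -/
def DominatesMass (J Ω : (Fin 4 → ℝ) → Matrix (Fin 4) (Fin 4) ℝ) (G : ↥Forms →ₗ[ℝ] ℝ) : Prop :=
  ∀ θ : ↥Forms, (∀ x, (J x)ᵀ * θ.1 x * J x = θ.1 x) →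
    (∀ x (v : Fin 4 → ℝ), 0 ≤ v ⬝ᵥ (θ.1 x *ᵥ (J x *ᵥ v))) →
    (∫ x in Icc (0 : Fin 4 → ℝ) 1, |wedge (θ.1 x) (part11 (J x) (Ω x))|) ≤ G θ

/-- `G` has order zero: it is bounded by the sup norm of the coefficients of the test form. -/
def OrderZero (G : ↥Forms →ₗ[ℝ] ℝ) (C : ℝ) : Prop :=
  ∀ (θ : ↥Forms) (B : ℝ), (∀ x i j, |θ.1 x i j| ≤ B) → |G θ| ≤ C * B

/-- Let `J` be any smooth almost complex structure on the four-torus `ℝ^4/ℤ^4` (it may depend on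
all coordinates and need not be integrable) and let `Ω` be a closed two-form taming `J`.
Then there is a Kähler current: a linear functional `G` on the space `Forms` of smooth two-forms
of the torus (the test forms) which is closed, of type `(1,1)`, strictly positive (bounded below
by the mass against the `(1,1)` part of `Ω`) and of order zero. -/
theorem result
    (J Ω : (Fin 4 → ℝ) → Matrix (Fin 4) (Fin 4) ℝ)
    (hJ : IsACS J) (hΩ : IsForm Ω) (hΩc : IsClosedForm Ω) (htame : Tames Ω J) :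
    ∃ (G : ↥Forms →ₗ[ℝ] ℝ) (C : ℝ),
      ClosedCurrent G ∧ Type11 J G ∧ DominatesMass J Ω G ∧ OrderZero G C := by
  obtain ⟨G, C, h1, h2, h3, h4⟩ := exists_kahler_current J (continuous_of_smooth hJ.1) hJ.2.1 hJ.2.2
    Ω hΩ hΩc htame
  exact ⟨G, C, h1, h2, h3, h4⟩

end Vale.Agent.Results.P204.A_kahler_current
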