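import Mathlib
import Vale.Agent.Lib.P204.Final

open Matrix
open scoped ContDiff

namespace Vale.Agent.Results.P204.A_torus_cohom_one

/-- On the four-torus `ℝ^4/ℤ^4`, let `J` be a smooth almost complex structure depending only on the
coordinate `x 0`. If a closed two-form `Ω` tames `J`, then a closed two-form `σ` is compatible
with `J` and tames it. Two-forms are antisymmetric matrix valued periodic functions,
with `Ω(u, v) = u ⬝ᵥ (Ω x *ᵥ v)`. -/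
theorem result
    (J : ℝ → Matrix (Fin 4) (Fin 4) ℝ)
    (hJs : ∀ i j, ContDiff ℝ ∞ (fun t => J t i j))
    (hJp : Function.Periodic J 1)
    (hJ2 : ∀ t, J t * J t = -1)
    (Ω : (Fin 4 → ℝ) → Matrix (Fin 4) (Fin 4) ℝ)
    (hΩs : ∀ i j, ContDiff ℝ ∞ (fun x => Ω x i j))
    (hΩp : ∀ (k : Fin 4) x, Ω (x + Pi.single k 1) = Ω x)
    (hΩa : ∀ x, (Ω x)ᵀ = - Ω x)
    (hΩc : ∀ x i j k, fderiv ℝ (fun z => Ω z j k) x (Pi.single i 1)
      + fderiv ℝ (fun z => Ω z k i) x (Pi.single j 1)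
      + fderiv ℝ (fun z => Ω z i j) x (Pi.single k 1) = 0)
    (htame : ∀ x (v : Fin 4 → ℝ), v ≠ 0 → 0 < v ⬝ᵥ (Ω x *ᵥ (J (x 0) *ᵥ v))) :
    ∃ σ : (Fin 4 → ℝ) → Matrix (Fin 4) (Fin 4) ℝ,
      (∀ i j, ContDiff ℝ ∞ (fun x => σ x i j)) ∧
      (∀ (k : Fin 4) x, σ (x + Pi.single k 1) = σ x) ∧
      (∀ x, (σ x)ᵀ = - σ x) ∧
      (∀ x i j k, fderiv ℝ (fun z => σ z j k) x (Pi.single i 1)
        + fderiv ℝ (fun z => σ z k i) x (Pi.single j 1)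
        + fderiv ℝ (fun z => σ z i j) x (Pi.single k 1) = 0) ∧
      (∀ x, (J (x 0))ᵀ * σ x * J (x 0) = σ x) ∧
      (∀ x (v : Fin 4 → ℝ), v ≠ 0 → 0 < v ⬝ᵥ (σ x *ᵥ (J (x 0) *ᵥ v))) :=
  Vale.Agent.Lib.P204.tamed_to_compatible_invariant J hJs hJp hJ2 Ω hΩs hΩp hΩa hΩc htame

end Vale.Agent.Results.P204.A_torus_cohom_one
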